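import Crest.Agent.R269.A.Loc

/-!
# Row 269, block C4: pointwise linear algebra for `tame_frame`
-/

set_option autoImplicit false
set_option linter.unusedSectionVars false
set_option linter.unusedVariables false

noncomputable section

namespace Crest.Agent.R269.T4

open Set Metric Filter Topology MeasureTheory Matrix
open Crest.AlgGeometry.ProjEmb
open scoped InnerProductSpace ContDiff

variable {κ κ' κ'' : Type} [Fintype κ] [Fintype κ'] [Fintype κ'']

/-- Squared Frobenius norm. -/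
def fro (M : Matrix κ κ' ℂ) : ℝ := ∑ i, ∑ j, ‖M i j‖ ^ 2

theorem fro_nonneg (M : Matrix κ κ' ℂ) : 0 ≤ fro M := by unfold fro; positivity

theorem fro_eq (M : Matrix κ κ' ℂ) : fro M = (Mᴴ * M).trace.re := by
  simp only [fro, trace, diag, mul_apply, conjTranspose_apply, Complex.re_sum]
  rw [Finset.sum_comm]
  refine Finset.sum_congr rfl fun j _ => Finset.sum_congr rfl fun i _ => ?_
  rw [Complex.star_def, Complex.conj_mul', ← Complex.ofReal_pow, Complex.ofReal_re]

/-- Tangential and normal part. -/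
theorem fro_split [DecidableEq κ'] {u : Matrix κ κ' ℂ} (h : uᴴ * u = 1) (v : Matrix κ κ'' ℂ) :
    fro v = fro (uᴴ * v) + fro (v - u * (uᴴ * v)) := by
  rw [fro_eq, fro_eq, fro_eq, ← Complex.add_re, ← trace_add]
  congr 2
  have e : uᴴ * (u * (uᴴ * v)) = uᴴ * v := by rw [← Matrix.mul_assoc, h, Matrix.one_mul]
  simp only [conjTranspose_sub, conjTranspose_mul, conjTranspose_conjTranspose, Matrix.sub_mul,
    Matrix.mul_sub, Matrix.mul_assoc, e]
  abel

theorem fro_mul_le (A : Matrix κ κ' ℂ) (B : Matrix κ' κ'' ℂ) : fro (A * B) ≤ fro A * fro B := by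
  unfold fro
  rw [Finset.sum_comm (f := fun j k => ‖B j k‖ ^ 2), Finset.sum_mul_sum]
  refine Finset.sum_le_sum fun i _ => Finset.sum_le_sum fun k _ => ?_
  refine le_trans ?_ (Finset.sum_mul_sq_le_sq_mul_sq Finset.univ (fun j => ‖A i j‖) fun j => ‖B j k‖)
  refine pow_le_pow_left₀ (norm_nonneg _) ?_ 2
  rw [mul_apply]
  exact (norm_sum_le _ _).trans (Finset.sum_le_sum fun j _ => (norm_mul _ _).le)

/-- A positive semidefinite matrix `-i C` is bounded by its trace; finitely many test vectors. -/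
theorem fro_le_trace [DecidableEq κ] {C : Matrix κ κ ℂ} (hC : Cᴴ = -C)
    (h : ∀ (a b : κ) (x y : ℤ), 0 ≤ (-Complex.I * (star (Pi.single a 1 + Pi.single b (x + y * Complex.I) : κ → ℂ) ⬝ᵥ
      C *ᵥ (Pi.single a 1 + Pi.single b (x + y * Complex.I)))).re) :
    0 ≤ (-Complex.I * C.trace).re ∧
      fro C ≤ 2 * (Fintype.card κ : ℝ) ^ 2 * (-Complex.I * C.trace).re ^ 2 := by
  have hs : ∀ a b, (C b a).re = -(C a b).re ∧ (C b a).im = (C a b).im := fun a b => by
    have := congrFun (congrFun hC a) b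
    rw [conjTranspose_apply, neg_apply, Complex.ext_iff] at this
    simpa [neg_eq_iff_eq_neg] using this
  have h1 : ∀ (a b : κ) (x y : ℤ), 0 ≤ (C a a).im + 2 * (x * (C a b).im + y * (C a b).re) +
      (x ^ 2 + y ^ 2) * (C b b).im := fun a b x y => by
    refine (h a b x y).trans_eq ?_
    have h0 : (C b b).re = 0 := by linarith [(hs b b).1]
    simp only [star_add, ← Pi.single_star, mulVec_add, add_dotProduct, dotProduct_add, single_dotProduct,
      mulVec_single, Pi.smul_apply, col_apply, MulOpposite.smul_eq_mul_unop, MulOpposite.unop_op]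
    simp [(hs a b).1, (hs a b).2, h0]
    ring
  have h2 : ∀ a, 0 ≤ (C a a).im := fun a => by simpa using h1 a a 0 0
  have ht : (-Complex.I * C.trace).re = ∑ a, (C a a).im := by simp [trace]
  rw [ht]
  have h3 : ∀ a, (C a a).im ≤ ∑ a, (C a a).im := fun a =>
    Finset.single_le_sum (fun a _ => h2 a) (Finset.mem_univ a)
  refine ⟨Finset.sum_nonneg fun a _ => h2 a, ?_⟩
  generalize ∑ a, (C a a).im = t at h3
  have h4 : ∀ a b, ‖C a b‖ ^ 2 ≤ 2 * t ^ 2 := fun a b => by
    have e1 := h1 a b 1 0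
    have e2 := h1 a b (-1) 0
    have e3 := h1 a b 0 1
    have e4 := h1 a b 0 (-1)
    push_cast at e1 e2 e3 e4
    have e5 := h3 a
    have e6 := h3 b
    rw [Complex.sq_norm, Complex.normSq_apply]
    have e7 : (C a b).re ^ 2 ≤ t ^ 2 := sq_le_sq' (by linarith) (by linarith)
    have e8 : (C a b).im ^ 2 ≤ t ^ 2 := sq_le_sq' (by linarith) (by linarith)
    linarith
  refine (Finset.sum_le_sum fun a _ => Finset.sum_le_sum fun b _ => h4 a b).trans_eq ?_
  simp
  ring

/-- Polarised Cauchy–Binet. -/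
theorem plu_pair {N n : ℕ} {u : Matrix (Fin (N + 1)) (Fin (n + 1)) ℂ} (h : uᴴ * u = 1)
    (v : Matrix (Fin (N + 1)) (Fin (n + 1)) ℂ) :
    ∑ β : Fin (n + 1) → Fin (N + 1),
      star (sel β * u).det * ∑ a, ((sel β * u).updateCol a fun i => (sel β * v) i a).det =
      (n + 1).factorial * (uᴴ * v).trace := by
  have e : ∀ {m : Type} (A : Matrix m (Fin (N + 1)) ℂ) (a : Fin (n + 1)),
      A * u.updateCol a (fun i => v i a) = (A * u).updateCol a fun i => (A * v) i a := fun A a => by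
    ext i j
    by_cases hj : j = a <;> simp [mul_apply, hj]
  simp only [Finset.mul_sum, trace, diag]
  rw [Finset.sum_comm]
  refine Finset.sum_congr rfl fun a _ => ?_
  have h1 : ((n + 1).factorial : ℂ) * (uᴴ * u.updateCol a fun i => v i a).det =
      ∑ β : Fin (n + 1) → Fin (N + 1), (uᴴ * (sel β)ᵀ).det * (sel β * u.updateCol a fun i => v i a).det :=
    det_mul_eq_sum uᴴ (u.updateCol a fun i => v i a)
  rw [e, h, ← cramer_apply, cramer_one, Module.End.one_apply] at h1
  rw [h1]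
  refine Finset.sum_congr rfl fun β _ => ?_
  rw [e, ← det_conjTranspose, conjTranspose_mul]
  congr 3
  ext i j
  simp only [conjTranspose_apply, transpose_apply, sel]
  split_ifs <;> simp

/-- The normal part. -/
theorem normal_le {N n : ℕ} (X : Geo N n) : ∃ K : ℝ, 0 ≤ K ∧ ∀ y ∈ X.Y, ‖y‖ = 1 → ∀ u, X.IsFrame y u → uᴴ * u = 1 →
    ∀ (v : Matrix (Fin (N + 1)) (Fin (n + 1)) ℂ) (J' : Matrix (Fin X.k) (Fin (N + 1)) ℂ),
      X.J y * v + J' * u = 0 → fro (v - u * (uᴴ * v)) ≤ K * fro J' := by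
  obtain ⟨c, hc, h⟩ := X.J_lower
  refine ⟨(n + 1) / c, by positivity, fun y hy h1 u hu huu v J' hJ => ?_⟩
  set w := v - u * (uᴴ * v) with hw
  have h2 : uᴴ * w = 0 := by
    rw [hw, Matrix.mul_sub, ← Matrix.mul_assoc uᴴ u, huu, Matrix.one_mul, sub_self]
  have h3 : X.J y * w = -(J' * u) := by
    rw [hw, Matrix.mul_sub, ← Matrix.mul_assoc _ u, hu.1, Matrix.zero_mul, sub_zero, eq_neg_iff_add_eq_zero, hJ]
  have h4 : c * fro w ≤ fro (X.J y * w) := by
    unfold fro
    rw [Finset.sum_comm, Finset.sum_comm (f := fun j a => ‖(X.J y * w) j a‖ ^ 2), Finset.mul_sum]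
    refine Finset.sum_le_sum fun a _ => ?_
    have := h y hy h1 (WithLp.toLp 2 fun i => w i a) fun x hx => by
      obtain ⟨b, hb⟩ := (hu.range hy).1 hx
      rw [EuclideanSpace.inner_eq_star_dotProduct, hb, dotProduct_comm, star_mulVec, ← dotProduct_mulVec]
      have : uᴴ *ᵥ (fun i => w i a) = 0 := funext fun j => congrFun (congrFun h2 j) a
      simp [this]
    rw [EuclideanSpace.norm_sq_eq] at this
    exact this
  have h5 : fro u = n + 1 := by rw [fro_eq, huu]; simp
  have h6 : fro (X.J y * w) ≤ fro J' * (n + 1) := by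
    rw [h3, ← h5]
    refine le_trans (le_of_eq ?_) (fro_mul_le J' u)
    simp [fro]
  rw [div_mul_eq_mul_div, le_div_iff₀ hc]
  linarith

/-- Cauchy–Schwarz. -/
theorem re_sq_le (x y : κ → ℂ) (hx : ∑ i, ‖x i‖ ^ 2 = 1) {t : ℝ} (h0 : 0 ≤ t)
    (h : t ≤ (∑ i, star (x i) * (-Complex.I * y i)).re) : t ^ 2 ≤ ∑ i, ‖y i‖ ^ 2 := by
  have h1 := Finset.sum_mul_sq_le_sq_mul_sq Finset.univ (fun j => ‖x j‖) fun j => ‖y j‖
  rw [hx, one_mul] at h1
  refine (pow_le_pow_left₀ h0 (h.trans ((Complex.re_le_norm _).trans ((norm_sum_le _ _).trans_eq ?_))) 2).trans h1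
  simp

end Crest.Agent.R269.T4
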