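import Crest.Agent.R269.C.Frame
import Crest.Agent.R269.C.T4.LA

/-!
# Row 269, block C4: almost everywhere calculus for `tame_frame`
-/

set_option autoImplicit false
set_option linter.unusedSectionVars false
set_option linter.unusedVariables false

noncomputable section

namespace Crest.Agent.R269.T4

open Set Metric Filter Topology MeasureTheory Matrix
open Crest.AlgGeometry.ProjEmb
open scoped InnerProductSpace ContDiff

variable (P : HA) {κ κ' κ'' : Type} [Fintype κ] [Fintype κ'] [Fintype κ'']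

theorem der_sum {σ : Type} (s : Finset σ) (x : σ → P.H) :
    ∀ᵐ θ ∂mu, P.der (∑ i ∈ s, x i) θ = ∑ i ∈ s, P.der (x i) θ := by
  rw [map_sum]
  exact Lp.coeFn_fun_finsetSum s _

theorem der_smul (c : ℂ) (x : P.H) : ∀ᵐ θ ∂mu, P.der (c • x) θ = c * P.der x θ := by
  rw [map_smul]
  exact Lp.coeFn_smul c _

theorem der_const (c : ℂ) : ∀ᵐ θ ∂mu, P.der (algebraMap ℂ P.H c) θ = 0 := by
  rw [P.der_algebraMap]
  exact Lp.coeFn_zero _ _ _

theorem der_prod {σ : Type} [DecidableEq σ] (s : Finset σ) (x : σ → P.H) :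
    ∀ᵐ θ ∂mu, P.der (∏ i ∈ s, x i) θ = ∑ a ∈ s, P.der (x a) θ * ∏ i ∈ s.erase a, P.val θ (x i) := by
  induction s using Finset.induction_on with
  | empty => simpa using der_const P 1
  | insert j s hj ih =>
    rw [Finset.prod_insert hj]
    filter_upwards [ih, P.der_mul (x j) (∏ i ∈ s, x i)] with θ h1 h2
    rw [h2, h1, Finset.sum_insert hj, Finset.erase_insert hj, map_prod, add_comm, mul_comm, Finset.mul_sum]
    congr 1
    refine Finset.sum_congr rfl fun a ha => ?_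
    rw [Finset.erase_insert_of_ne (by rintro rfl; exact hj ha),
      Finset.prod_insert fun h => hj (Finset.mem_of_mem_erase h)]
    ring

/-- The derivative of a matrix. -/
def dM (M : Matrix κ κ' P.H) (θ : ℝ) : Matrix κ κ' ℂ := M.map fun x => P.der x θ

theorem der_det [DecidableEq κ] (M : Matrix κ κ P.H) : ∀ᵐ θ ∂mu, P.der M.det θ =
    ∑ a, ((M.map (P.val θ)).updateCol a fun i => dM P M θ i a).det := by
  rw [det_apply']
  filter_upwards [der_sum P Finset.univ fun σ : Equiv.Perm κ => ((Equiv.Perm.sign σ : ℤ) : P.H) * ∏ i, M (σ i) i,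
    ae_all_iff.2 fun σ : Equiv.Perm κ => der_smul P (Equiv.Perm.sign σ : ℤ) (∏ i, M (σ i) i),
    ae_all_iff.2 fun σ : Equiv.Perm κ => der_prod P Finset.univ fun i => M (σ i) i] with θ h1 h2 h3
  rw [h1]
  simp only [det_apply']
  rw [Finset.sum_comm]
  refine Finset.sum_congr rfl fun σ _ => ?_
  rw [← zsmul_eq_mul, ← Int.cast_smul_eq_zsmul ℂ, h2, h3, Finset.mul_sum]
  refine Finset.sum_congr rfl fun a _ => ?_
  rw [← Finset.mul_prod_erase _ _ (Finset.mem_univ a), updateCol_self]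
  congr 2
  exact Finset.prod_congr rfl fun i hi => by rw [updateCol_ne (Finset.ne_of_mem_erase hi), map_apply]

theorem dM_mul (M : Matrix κ κ' P.H) (M' : Matrix κ' κ'' P.H) : ∀ᵐ θ ∂mu,
    dM P (M * M') θ = M.map (P.val θ) * dM P M' θ + dM P M θ * M'.map (P.val θ) := by
  filter_upwards [ae_all_iff.2 fun i => ae_all_iff.2 fun k => der_sum P Finset.univ fun j => M i j * M' j k,
    ae_all_iff.2 fun i => ae_all_iff.2 fun k => ae_all_iff.2 fun j => P.der_mul (M i j) (M' j k)] with θ h1 h2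
  ext i k
  simp only [dM, map_apply, mul_apply, Matrix.add_apply, h1, h2, Finset.sum_add_distrib, mul_comm]

theorem dM_star (M : Matrix κ κ' P.H) : ∀ᵐ θ ∂mu, dM P Mᴴ θ = (dM P M θ)ᴴ := by
  filter_upwards [ae_all_iff.2 fun i => ae_all_iff.2 fun j => P.der_star (M i j)] with θ h
  ext i j
  exact h j i

theorem dM_const (M : Matrix κ κ' ℂ) : ∀ᵐ θ ∂mu, dM P (M.map (algebraMap ℂ P.H)) θ = 0 := by
  filter_upwards [ae_all_iff.2 fun i => ae_all_iff.2 fun j => der_const P (M i j)] with θ h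
  ext i j
  exact h i j

theorem val_star (M : Matrix κ κ' P.H) (θ : ℝ) : Mᴴ.map (P.val θ) = (M.map (P.val θ))ᴴ := by
  ext i j
  exact P.val_star _ _

theorem val_on [DecidableEq κ'] {M : Matrix κ κ' P.H} (h : Mᴴ * M = 1) (θ : ℝ) :
    (M.map (P.val θ))ᴴ * M.map (P.val θ) = 1 := by
  rw [← val_star, ← Matrix.map_mul, h, Matrix.map_one _ (map_zero _) (map_one _)]

/-- Differentiate `Mᴴ M = 1`. -/
theorem skew [DecidableEq κ'] {M : Matrix κ κ' P.H} (h : Mᴴ * M = 1) : ∀ᵐ θ ∂mu,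
    ((M.map (P.val θ))ᴴ * dM P M θ)ᴴ = -((M.map (P.val θ))ᴴ * dM P M θ) := by
  filter_upwards [dM_mul P Mᴴ M, dM_star P M, dM_const P (1 : Matrix κ' κ' ℂ)] with θ h1 h2 h3
  rw [Matrix.map_one _ (map_zero _) (map_one _)] at h3
  rw [h, h3, h2, val_star] at h1
  rw [conjTranspose_mul, conjTranspose_conjTranspose, eq_neg_iff_add_eq_zero, add_comm, h1]

/-- `pos` for vectors of constant length. -/
theorem pos' (V : κ → P.A) {c : ℝ} (h : ∀ θ, ∑ i, ‖P.val θ (P.ι (V i))‖ ^ 2 = c) :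
    ∀ᵐ θ ∂mu, 0 ≤ (∑ i, star (P.val θ (P.ι (V i))) * (-Complex.I * P.der (P.ι (V i)) θ)).re := by
  have h0 : 0 ≤ c := h 0 ▸ by positivity
  rcases h0.eq_or_lt with rfl | h0
  · refine Eventually.of_forall fun θ => ?_
    have h1 := (Finset.sum_eq_zero_iff_of_nonneg fun i _ => sq_nonneg _).1 (h θ)
    rw [Finset.sum_eq_zero fun i hi => by
      rw [norm_eq_zero.1 (pow_eq_zero_iff two_ne_zero |>.1 (h1 i hi)), star_zero, zero_mul]]
    exact le_rfl
  set r : ℝ := (√c)⁻¹ with hr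
  have hr0 : 0 < r := inv_pos.2 (Real.sqrt_pos.2 h0)
  have h1 := P.pos (fun i => (r : ℂ) • V i) fun θ => by
    simp only [map_smul, smul_eq_mul, norm_mul, mul_pow, ← Finset.mul_sum, h, Complex.norm_real,
      Real.norm_eq_abs, sq_abs, hr, inv_pow, Real.sq_sqrt h0.le, inv_mul_cancel₀ h0.ne']
  filter_upwards [h1, ae_all_iff.2 fun i => der_smul P r (P.ι (V i))] with θ h2 h3
  have e : ∑ i, star (P.val θ (P.ι ((r : ℂ) • V i))) * (-Complex.I * P.der (P.ι ((r : ℂ) • V i)) θ) =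
      ((r * r : ℝ) : ℂ) * ∑ i, star (P.val θ (P.ι (V i))) * (-Complex.I * P.der (P.ι (V i)) θ) := by
    rw [Finset.mul_sum]
    refine Finset.sum_congr rfl fun i _ => ?_
    rw [map_smul P.ι, h3, map_smul, smul_eq_mul, star_mul', Complex.star_def, Complex.conj_ofReal]
    push_cast
    ring
  rw [e, Complex.re_ofReal_mul] at h2
  exact (mul_nonneg_iff_of_pos_left (mul_pos hr0 hr0)).1 h2

/-- `-i Uᴴ U_θ ≥ 0` on a fixed vector. -/
theorem pos_mat [DecidableEq κ'] {U : Matrix κ κ' P.A} (h : (U.map P.ι)ᴴ * U.map P.ι = 1) (a : κ' → ℂ) :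
    ∀ᵐ θ ∂mu, 0 ≤ (-Complex.I * (star a ⬝ᵥ
      (((U.map P.ι).map (P.val θ))ᴴ * dM P (U.map P.ι) θ) *ᵥ a)).re := by
  have hv : ∀ θ i, P.val θ (P.ι (∑ j, a j • U i j)) = ((U.map P.ι).map (P.val θ) *ᵥ a) i := fun θ i => by
    simp [mulVec, dotProduct, mul_comm]
  have h1 := pos' P (fun i => ∑ j, a j • U i j) (c := (star a ⬝ᵥ a).re) fun θ => by
    have h2 : star ((U.map P.ι).map (P.val θ) *ᵥ a) ⬝ᵥ ((U.map P.ι).map (P.val θ) *ᵥ a) = star a ⬝ᵥ a := by
      rw [star_mulVec, ← dotProduct_mulVec, mulVec_mulVec, val_on P h, one_mulVec]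
    rw [← h2, dotProduct, Complex.re_sum]
    refine Finset.sum_congr rfl fun i _ => ?_
    rw [hv, Pi.star_apply, Complex.star_def, Complex.conj_mul', ← Complex.ofReal_pow, Complex.ofReal_re]
  filter_upwards [h1, ae_all_iff.2 fun i => der_sum P Finset.univ fun j => a j • P.ι (U i j),
    ae_all_iff.2 fun i => ae_all_iff.2 fun j => der_smul P (a j) (P.ι (U i j))] with θ h2 h3 h4
  refine h2.trans_eq (congrArg _ ?_)
  rw [← mulVec_mulVec, dotProduct_mulVec, ← star_mulVec, dotProduct, Finset.mul_sum]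
  refine Finset.sum_congr rfl fun i _ => ?_
  rw [hv, Pi.star_apply, mul_left_comm]
  congr 2
  simp only [map_sum P.ι, map_smul P.ι, h3, h4, mulVec, dotProduct, dM, map_apply, mul_comm]

theorem fro_dM (U : Matrix κ κ' P.A) (θ : ℝ) :
    fro (dM P (U.map P.ι) θ) = P.dsq (fun x : κ × κ' => U x.1 x.2) θ := by
  rw [HA.dsq, Fintype.sum_prod_type]
  rfl

theorem nd_eq (U : Matrix κ κ' P.A) : P.nd (U.map P.ι) = P.nsq fun x : κ × κ' => U x.1 x.2 := by
  rw [HA.nsq, Fintype.sum_prod_type]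
  rfl

/-- Polynomials in a unit vector are tame. -/
theorem nsq_aeval {m : ℕ} (F : κ → MvPolynomial (Fin m) ℂ) : ∃ K : ℝ, 0 ≤ K ∧ ∀ G : Fin m → P.A,
    (∀ θ, ‖P.valV θ G‖ = 1) → P.nsq (fun i => MvPolynomial.aeval G (F i)) ≤ K * P.nsq G := by
  choose K hK h using fun i => P.norm_der_aeval_le (F i) 1
  refine ⟨∑ i, K i, Finset.sum_nonneg fun i _ => hK i, fun G hG => ?_⟩
  rw [Finset.sum_mul]
  refine Finset.sum_le_sum fun i _ => ?_
  have := h i (fun j => P.ι (G j)) fun θ j => by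
    rw [← P.valV_apply, ← hG θ]
    exact PiLp.norm_apply_le _ _
  rwa [← MvPolynomial.comp_aeval_apply] at this

end Crest.Agent.R269.T4
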