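import Crest.Agent.R269.C.T4.Der

/-!
# Row 269, block C4: orthonormal holomorphic frames are tame
-/

set_option autoImplicit false
set_option linter.unusedSectionVars false
set_option linter.unusedVariables false

noncomputable section

namespace Crest.Agent.R269.T4

open Set Metric Filter Topology MeasureTheory Matrix
open Crest.AlgGeometry.ProjEmb
open scoped InnerProductSpace ContDiff

variable (P : HA) {N n : ℕ} (X : Geo N n)

/-- The Plücker vector of a matrix over `A`. -/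
def pA (U : Matrix (Fin (N + 1)) (Fin (n + 1)) P.A) (β : Fin (n + 1) → Fin (N + 1)) : P.A :=
  ((sel β).map (algebraMap ℂ P.A) * U).det

theorem map_pA {B : Type} [CommRing B] [Algebra ℂ B] (φ : P.A →ₐ[ℂ] B)
    (U : Matrix (Fin (N + 1)) (Fin (n + 1)) P.A) (β : Fin (n + 1) → Fin (N + 1)) :
    φ (pA P U β) = ((sel β).map (algebraMap ℂ B) * U.map φ).det := by
  rw [pA, AlgHom.map_det, AlgHom.mapMatrix_apply, Matrix.map_mul, Matrix.map_map]
  congr 3
  exact funext φ.commutes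

theorem ev_pA (U : Matrix (Fin (N + 1)) (Fin (n + 1)) P.A) (β : Fin (n + 1) → Fin (N + 1)) (z : ℂ) :
    P.ev z (pA P U β) = (sel β * U.map (P.ev z)).det := map_pA P _ U β

theorem map_val {κ κ' : Type} (U : Matrix κ κ' P.A) (θ : ℝ) :
    (U.map P.ι).map (P.val θ) = U.map (P.ev (circleMap 0 1 θ)) := by
  ext i j
  exact (P.ev_val _ _).symm

theorem sq_pA {U : Matrix (Fin (N + 1)) (Fin (n + 1)) P.A} (h : (U.map P.ι)ᴴ * U.map P.ι = 1) (θ : ℝ) :
    ∑ β, ‖P.val θ (P.ι (pA P U β))‖ ^ 2 = (n + 1).factorial := by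
  have h1 := norm_plU_sq ((U.map P.ι).map (P.val θ))
  rw [gram, val_on P h, det_one, Complex.one_re, mul_one, EuclideanSpace.norm_sq_eq, map_val] at h1
  rw [← h1]
  exact Finset.sum_congr rfl fun β _ => by rw [← P.ev_val, ev_pA]; rfl

theorem der_pA {U : Matrix (Fin (N + 1)) (Fin (n + 1)) P.A} (h : (U.map P.ι)ᴴ * U.map P.ι = 1) : ∀ᵐ θ ∂mu,
    ∑ β, star (P.val θ (P.ι (pA P U β))) * P.der (P.ι (pA P U β)) θ =
      (n + 1).factorial * (((U.map P.ι).map (P.val θ))ᴴ * dM P (U.map P.ι) θ).trace := by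
  filter_upwards [ae_all_iff.2 fun β : Fin (n + 1) → Fin (N + 1) =>
      der_det P ((sel β).map (algebraMap ℂ P.H) * U.map P.ι),
    ae_all_iff.2 fun β : Fin (n + 1) → Fin (N + 1) => dM_mul P ((sel β).map (algebraMap ℂ P.H)) (U.map P.ι),
    ae_all_iff.2 fun β : Fin (n + 1) → Fin (N + 1) => dM_const P (sel β)] with θ h1 h2 h3
  rw [← plu_pair (val_on P h θ)]
  refine Finset.sum_congr rfl fun β _ => ?_
  have e : ((sel β).map (algebraMap ℂ P.H)).map (P.val θ) = sel β := by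
    ext i j
    exact (P.val θ).commutes _
  rw [← P.ev_val, ev_pA, map_pA, h1, h2, h3, Matrix.map_mul, e, Matrix.zero_mul, add_zero, map_val]

variable {X} in
/-- The matrix of the `δ_{fβ}` has rank one over `A`. -/
theorem exists_muA {G : Fin (N + 1) → P.A} (hG : P.InY X G) {U} (hU : P.FrameA X G U)
    {δ : X.Fi × (Fin (n + 1) → Fin (N + 1)) → P.A} (hδ : ∀ x z, P.ev z (δ x) = X.dl x.1 (sel x.2) (P.evV z G)) :
    ∃ μ : X.Fi → P.A, ∀ x, δ x = μ x.1 * pA P U x.2 := by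
  obtain ⟨a, ha⟩ := P.bezout (pA P U) fun z hz => by
    by_contra h
    push Not at h
    refine X.plU_ne (hU z hz) ?_
    ext β
    exact (ev_pA P U β z).symm.trans (h β)
  refine ⟨fun f => ∑ β, a β * δ (f, β), fun x => P.ext_ev fun z hz => ?_⟩
  obtain ⟨m, -, hm⟩ := X.exists_mu (hG z hz) (hU z hz)
  have h1 := congrArg (P.ev z) ha
  simp only [map_sum, map_mul, map_one, ev_pA] at h1
  simp only [map_sum, map_mul, hδ, hm, ev_pA, mul_left_comm _ (m _), ← Finset.mul_sum, h1, mul_one]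

theorem dl_lower : ∃ c : ℝ, 0 < c ∧ ∀ y ∈ X.Y, ‖y‖ = 1 →
    c ≤ ∑ x : X.Fi × (Fin (n + 1) → Fin (N + 1)), ‖X.dl x.1 (sel x.2) y‖ ^ 2 := by
  obtain ⟨c, hc, h⟩ := X.isCompact_Y1.exists_forall_le'
    (f := fun y => ∑ x : X.Fi × (Fin (n + 1) → Fin (N + 1)), ‖X.dl x.1 (sel x.2) y‖ ^ 2) (a := 0)
    (Continuous.continuousOn (continuous_finsetSum _ fun x _ =>
      (continuous_iff_continuousAt.2 fun y => (X.analyticAt_dl x.1 _ y).continuousAt).norm.pow 2))
    fun y hy => by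
      obtain ⟨f, hf⟩ := X.exists_dv_ne hy.1
      obtain ⟨β, hβ⟩ : ∃ β, X.dl f (sel β) y ≠ 0 := by
        by_contra h
        push Not at h
        exact hf (by ext β; exact h β)
      exact Finset.sum_pos' (fun _ _ => sq_nonneg _) ⟨(f, β), Finset.mem_univ _, by positivity⟩
  exact ⟨c, hc, fun y hy h1 => h y ⟨hy, by simpa using h1⟩⟩

theorem reg_le {κ : Type} [Fintype κ] {V : κ → P.A} {c : ℝ} (hc : 0 < c) (h : ∀ θ, c ≤ ‖P.valV θ V‖ ^ 2) :
    P.reg V ≤ c⁻¹ * P.nsq V := by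
  rw [← P.integral_dsq, ← integral_const_mul]
  refine integral_mono (P.integrable_rel (fun θ h0 => ?_) V) ((P.integrable_dsq V).const_mul _) fun θ => ?_
  · have := h θ
    rw [h0, norm_zero] at this
    linarith
  · dsimp only
    rw [← div_eq_inv_mul]
    exact div_le_div_of_nonneg_left (Finset.sum_nonneg fun _ _ => sq_nonneg _) hc (h θ)

/-- The trace of `-i Uᴴ U_θ`. -/
theorem trace_le : ∃ K : ℝ, 0 ≤ K ∧ ∀ G : Fin (N + 1) → P.A, P.InY X G → (∀ θ, ‖P.valV θ G‖ = 1) →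
    ∀ U, P.FrameA X G U → (U.map P.ι)ᴴ * U.map P.ι = 1 →
      ∃ Q : X.Fi × (Fin (n + 1) → Fin (N + 1)) → P.A, P.nsq Q ≤ K * P.nsq G ∧ (∀ θ, ‖P.valV θ Q‖ = 1) ∧ ∀ᵐ θ ∂mu,
        (-Complex.I * (((U.map P.ι).map (P.val θ))ᴴ * dM P (U.map P.ι) θ).trace).re ≤
          (∑ x, star (P.val θ (P.ι (Q x))) * (-Complex.I * P.der (P.ι (Q x)) θ)).re := by
  choose F _ hF using fun x : X.Fi × (Fin (n + 1) → Fin (N + 1)) => X.exists_dl_poly x.1 (sel x.2)
  obtain ⟨K, hK, hb⟩ := nsq_aeval P F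
  obtain ⟨c, hc, hl⟩ := dl_lower X
  refine ⟨6 * (c⁻¹ * K), by positivity, fun G hG h1 U hU hon => ?_⟩
  set δ : X.Fi × (Fin (n + 1) → Fin (N + 1)) → P.A := fun x => MvPolynomial.aeval G (F x) with hδ
  have hev : ∀ x z, P.ev z (δ x) = X.dl x.1 (sel x.2) (P.evV z G) := fun x z => by rw [hδ, P.ev_aeval, hF]
  have hlow : ∀ θ, c ≤ ‖P.valV θ δ‖ ^ 2 := fun θ => by
    rw [EuclideanSpace.norm_sq_eq]
    refine (hl _ (hG _ (circleMap_mem_closedBall 0 zero_le_one θ)) (h1 θ)).trans_eq ?_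
    exact Finset.sum_congr rfl fun x _ => by rw [← hev]; rfl
  obtain ⟨μ, hμ⟩ := exists_muA P hG hU hev
  obtain ⟨o, o', -, -, ho, -, hn⟩ := P.outerV (G := δ) fun θ h0 => by
    have := hlow θ
    rw [h0, norm_zero] at this
    linarith
  refine ⟨o' • δ, hn.trans ?_, ho, ?_⟩
  · have := (reg_le P hc hlow).trans (mul_le_mul_of_nonneg_left (hb G h1) (inv_nonneg.2 hc.le))
    linarith
  have hQ : ∀ x, P.ι ((o' • δ) x) = P.ι (o' * μ x.1) * P.ι (pA P U x.2) := fun x => by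
    rw [Pi.smul_apply, smul_eq_mul, hμ, ← mul_assoc, map_mul]
  have hf : (0 : ℝ) < (n + 1).factorial := by positivity
  have hν : ∀ θ, ∑ f, ‖P.val θ (P.ι (o' * μ f))‖ ^ 2 = ((n + 1).factorial : ℝ)⁻¹ := fun θ => by
    have h2 := congrArg (· ^ 2) (ho θ)
    simp only [EuclideanSpace.norm_sq_eq, P.valV_apply, hQ, map_mul (P.val θ), norm_mul, mul_pow,
      Fintype.sum_prod_type, ← Finset.mul_sum, sq_pA P hon, ← Finset.sum_mul, one_pow] at h2
    exact eq_inv_of_mul_eq_one_left h2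
  filter_upwards [pos' P _ hν, der_pA P hon, ae_all_iff.2 fun x : X.Fi × (Fin (n + 1) → Fin (N + 1)) =>
    P.der_mul (P.ι (o' * μ x.1)) (P.ι (pA P U x.2))] with θ h2 h3 h4
  have e1 : ∀ {κ : Type} [Fintype κ] (x : κ → ℂ), ∑ i, star (x i) * x i = ((∑ i, ‖x i‖ ^ 2 : ℝ) : ℂ) := fun x => by
    simp only [Complex.star_def, Complex.conj_mul']
    push_cast
    rfl
  have e : ∑ x, star (P.val θ (P.ι ((o' • δ) x))) * (-Complex.I * P.der (P.ι ((o' • δ) x)) θ) =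
      (∑ f, star (P.val θ (P.ι (o' * μ f))) * P.val θ (P.ι (o' * μ f))) *
        (-Complex.I * ∑ β, star (P.val θ (P.ι (pA P U β))) * P.der (P.ι (pA P U β)) θ) +
      (∑ f, star (P.val θ (P.ι (o' * μ f))) * (-Complex.I * P.der (P.ι (o' * μ f)) θ)) *
        ∑ β, star (P.val θ (P.ι (pA P U β))) * P.val θ (P.ι (pA P U β)) := by
    rw [Finset.mul_sum _ _ (-Complex.I), Finset.sum_mul_sum, Finset.sum_mul_sum, ← Finset.sum_add_distrib,
      Fintype.sum_prod_type]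
    refine Finset.sum_congr rfl fun f _ => ?_
    rw [← Finset.sum_add_distrib]
    refine Finset.sum_congr rfl fun β _ => ?_
    rw [hQ, h4, map_mul (P.val θ), star_mul']
    ring
  rw [e, e1, e1, hν, sq_pA P hon, h3, Complex.add_re, Complex.re_mul_ofReal]
  have e2 : ∀ t : ℂ, ((((n + 1).factorial : ℝ)⁻¹ : ℝ) : ℂ) * (-Complex.I * ((n + 1).factorial * t)) =
      -Complex.I * t := fun t => by
    have : ((n + 1).factorial : ℂ) ≠ 0 := by exact_mod_cast hf.ne'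
    push_cast
    field_simp
  rw [e2]
  exact le_add_of_nonneg_right (mul_nonneg h2 hf.le)

/-- The tangential part is bounded by its trace. -/
theorem tang_le {κ κ' : Type} [Fintype κ] [Fintype κ'] [DecidableEq κ'] {U : Matrix κ κ' P.A}
    (h : (U.map P.ι)ᴴ * U.map P.ι = 1) : ∀ᵐ θ ∂mu,
    0 ≤ (-Complex.I * (((U.map P.ι).map (P.val θ))ᴴ * dM P (U.map P.ι) θ).trace).re ∧
      fro (((U.map P.ι).map (P.val θ))ᴴ * dM P (U.map P.ι) θ) ≤ 2 * (Fintype.card κ' : ℝ) ^ 2 *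
        (-Complex.I * (((U.map P.ι).map (P.val θ))ᴴ * dM P (U.map P.ι) θ).trace).re ^ 2 := by
  let v : κ' × κ' × ℤ × ℤ → κ' → ℂ := fun x =>
    Pi.single x.1 1 + Pi.single x.2.1 ((x.2.2.1 : ℂ) + (x.2.2.2 : ℂ) * Complex.I)
  filter_upwards [skew P h, ae_all_iff.2 fun x => pos_mat P h (v x)] with θ e1 e2
  exact fro_le_trace e1 fun a b x y => e2 (a, b, x, y)

theorem tame_frame : ∃ K : ℝ, 0 ≤ K ∧ ∀ G : Fin (N + 1) → P.A, P.InY X G → (∀ θ, ‖P.valV θ G‖ = 1) →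
    ∀ U, P.FrameA X G U → (U.map P.ι)ᴴ * U.map P.ι = 1 → P.nd (U.map P.ι) ≤ K * P.nsq G := by
  obtain ⟨K₁, hK₁, h₁⟩ := trace_le P X
  obtain ⟨K₂, hK₂, h₂⟩ := normal_le X
  obtain ⟨K₃, hK₃, h₃⟩ := nsq_aeval P fun x : Fin X.k × Fin (N + 1) => MvPolynomial.pderiv x.2 (X.F x.1)
  refine ⟨2 * (Fintype.card (Fin (n + 1)) : ℝ) ^ 2 * K₁ + K₂ * K₃, by positivity, fun G hG h1 U hU hon => ?_⟩
  obtain ⟨Q, hQ, hQ1, hQ2⟩ := h₁ G hG h1 U hU hon
  have hJ : (P.JA X G).map P.ι * U.map P.ι = (0 : Matrix _ _ ℂ).map (algebraMap ℂ P.H) := by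
    rw [← Matrix.map_mul, hU.JA_mul, Matrix.map_zero _ (map_zero _), Matrix.map_zero _ (map_zero _)]
  have key : ∀ᵐ θ ∂mu, P.dsq (fun x : Fin (N + 1) × Fin (n + 1) => U x.1 x.2) θ ≤
      2 * (Fintype.card (Fin (n + 1)) : ℝ) ^ 2 * P.dsq Q θ +
        K₂ * P.dsq (fun x : Fin X.k × Fin (N + 1) => P.JA X G x.1 x.2) θ := by
    filter_upwards [hQ2, tang_le P hon, dM_mul P ((P.JA X G).map P.ι) (U.map P.ι),
      dM_const P (0 : Matrix (Fin X.k) (Fin (n + 1)) ℂ)] with θ e1 ⟨t0, t1⟩ e3 e4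
    have hz := circleMap_mem_closedBall 0 zero_le_one θ
    have t2 := re_sq_le _ _ (by
      have := congrArg (· ^ 2) (hQ1 θ)
      simpa only [EuclideanSpace.norm_sq_eq, P.valV_apply, one_pow] using this) t0 e1
    rw [hJ, e4, map_val P (P.JA X G), P.JA_map] at e3
    have t3 := h₂ _ (hG _ hz) (h1 θ) _ (by rw [map_val]; exact hU _ hz) (val_on P hon θ) _ _ e3.symm
    rw [← fro_dM, ← fro_dM, fro_split (val_on P hon θ)]
    exact add_le_add (t1.trans (mul_le_mul_of_nonneg_left t2 (by positivity))) t3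
  have h4 := integral_mono_ae (P.integrable_dsq _)
    (((P.integrable_dsq _).const_mul _).add ((P.integrable_dsq _).const_mul _)) key
  simp only [Pi.add_apply] at h4
  rw [integral_add ((P.integrable_dsq _).const_mul _) ((P.integrable_dsq _).const_mul _), integral_const_mul,
    integral_const_mul, P.integral_dsq, P.integral_dsq, P.integral_dsq] at h4
  rw [nd_eq, add_mul, mul_assoc _ K₁, mul_assoc K₂]
  exact h4.trans (add_le_add (mul_le_mul_of_nonneg_left hQ (by positivity))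
    (mul_le_mul_of_nonneg_left (h₃ G h1) hK₂))

end Crest.Agent.R269.T4
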